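import Mathlib

/-!
# Improved Young inequality for separated real frequencies (block [YOUNG] of P112)

`quad s ρ f g h e` is the sum of `f i * g j * h k * e l` over all `(i,j,k,l)` with
`|s i + s j - s k - s l| ≤ ρ`.  For `3ρ`-separated frequencies and `a = m ^ 3 ≥ 0`:

* `quad_le_cube` : `quad a a a a ≤ (∑ m ^ 4) ^ 3` (plain Young);
* `quad_le_of_spread` : a fixed gain when no index carries most of the mass;
* `quad_le_expand` : the perturbative bound when one index carries most of the mass;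
* `quad_le_rpow`, `quad_le_Lp` (Y1) : `quad ≤ (∑ a ^ p) ^ (4 / p)`, `p ≤ 4/3 + c / log q`;
* `quad_le_weights` (Y) : `quad ≤ (∑ N) ^ (2β) * ∑ a ^ 4 / N ^ (2β)`, `1 - cY / log q ≤ β ≤ 1`;
* `quad_le_gauge` (Y3) : `quad ≤ (∑ M ^ (1/β)) ^ (2β) * ∑ a ^ 4 / M ^ 2`.
-/

namespace Vale.Agent.P112.H747

open Finset

section Basic

variable {ι : Type*} [Fintype ι]

/-- quadruple sum over approximate additive relations -/
noncomputable def quad (s : ι → ℝ) (ρ : ℝ) (f g h e : ι → ℝ) : ℝ :=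
  ∑ i, ∑ j, ∑ k, ∑ l, if |s i + s j - s k - s l| ≤ ρ then f i * g j * h k * e l else 0

/-- `3ρ`-separated frequencies -/
def Sep (s : ι → ℝ) (ρ : ℝ) : Prop := ∀ i j, i ≠ j → 3 * ρ < |s i - s j|

omit [Fintype ι] in
theorem Sep.uniq {s : ι → ℝ} {ρ : ℝ} (hs : Sep s ρ) (hρ : 0 ≤ ρ) {l l' : ι} {x : ℝ}
    (h : |x - s l| ≤ ρ) (h' : |x - s l'| ≤ ρ) : l = l' := by
  by_contra hne
  have h1 := hs l l' hne
  have h2 : |s l - s l'| ≤ 2 * ρ := by
    have : s l - s l' = (x - s l') - (x - s l) := by ring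
    rw [this]
    calc |(x - s l') - (x - s l)| ≤ |x - s l'| + |x - s l| := abs_sub _ _
      _ ≤ 2 * ρ := by linarith
  linarith

omit [Fintype ι] in
theorem Sep.inj {s : ι → ℝ} {ρ : ℝ} (hs : Sep s ρ) (hρ : 0 ≤ ρ) : Function.Injective s := by
  intro i j hij
  by_contra hne
  have h1 := hs i j hne
  rw [hij, sub_self, abs_zero] at h1
  linarith

omit [Fintype ι] in
theorem Sep.neg {s : ι → ℝ} {ρ : ℝ} (hs : Sep s ρ) : Sep (fun i => - s i) ρ := by
  intro i j hne
  have h1 := hs i j hne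
  have : |(-s i) - (-s j)| = |s i - s j| := by
    rw [← abs_neg]; congr 1; ring
  show 3 * ρ < |(-s i) - (-s j)|
  rw [this]; exact h1

/-- a sum over at most one index -/
theorem sum_ite_le (R : ι → Prop) [DecidablePred R] (hR : ∀ l l', R l → R l' → l = l')
    (f : ι → ℝ) (C : ℝ) (hC : 0 ≤ C) (hf : ∀ l, R l → f l ≤ C) :
    ∑ l, (if R l then f l else 0) ≤ C := by
  by_cases hex : ∃ l, R l
  · obtain ⟨l0, hl0⟩ := hex
    rw [Finset.sum_eq_single l0]
    · rw [if_pos hl0]; exact hf l0 hl0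
    · intro b _ hb
      rw [if_neg]
      intro hRb
      exact hb (hR _ _ hRb hl0)
    · intro h; exact absurd (Finset.mem_univ l0) h
  · push Not at hex
    rw [Finset.sum_eq_zero]
    · exact hC
    · intro l _
      rw [if_neg (hex l)]

/-- Cauchy-Schwarz along a partial injection -/
theorem sum_rel_le (R : ι → ι → Prop) [∀ k l, Decidable (R k l)]
    (h1 : ∀ k l l', R k l → R k l' → l = l') (h2 : ∀ k k' l, R k l → R k' l → k = k')
    (u v : ι → ℝ) (t : ℝ) (ht : 0 < t) :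
    ∑ k, ∑ l, (if R k l then u k * v l else 0) ≤
      (t * ∑ k, u k ^ 2 + t⁻¹ * ∑ l, v l ^ 2) / 2 := by
  have key : ∀ k l, (if R k l then u k * v l else 0) ≤
      (if R k l then t / 2 * u k ^ 2 else 0) + (if R k l then t⁻¹ / 2 * v l ^ 2 else 0) := by
    intro k l
    split_ifs
    · have : 0 ≤ (t * u k - v l) ^ 2 := sq_nonneg _
      have h3 : t⁻¹ / 2 * v l ^ 2 = (v l ^ 2) / (2 * t) := by field_simp
      rw [h3, ← sub_nonneg]
      have h4 : t / 2 * u k ^ 2 + v l ^ 2 / (2 * t) - u k * v l = (t * u k - v l) ^ 2 / (2 * t) := by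
        field_simp; ring
      rw [h4]; positivity
    · simp
  calc ∑ k, ∑ l, (if R k l then u k * v l else 0)
      ≤ ∑ k, ∑ l, ((if R k l then t / 2 * u k ^ 2 else 0) +
          (if R k l then t⁻¹ / 2 * v l ^ 2 else 0)) :=
        Finset.sum_le_sum fun k _ => Finset.sum_le_sum fun l _ => key k l
    _ = ∑ k, ∑ l, (if R k l then t / 2 * u k ^ 2 else 0) +
          ∑ l, ∑ k, (if R k l then t⁻¹ / 2 * v l ^ 2 else 0) := by
        rw [Finset.sum_comm (f := fun l k => (if R k l then t⁻¹ / 2 * v l ^ 2 else 0))]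
        simp [Finset.sum_add_distrib]
    _ ≤ ∑ k, t / 2 * u k ^ 2 + ∑ l, t⁻¹ / 2 * v l ^ 2 := by
        apply add_le_add
        · apply Finset.sum_le_sum
          intro k _
          exact sum_ite_le (fun l => R k l) (h1 k) _ _ (by positivity) (fun l _ => le_rfl)
        · apply Finset.sum_le_sum
          intro l _
          exact sum_ite_le (fun k => R k l) (fun k k' hk hk' => h2 k k' l hk hk') _ _
            (by positivity) (fun k _ => le_rfl)
    _ = (t * ∑ k, u k ^ 2 + t⁻¹ * ∑ l, v l ^ 2) / 2 := by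
        rw [← Finset.mul_sum, ← Finset.mul_sum]; ring

theorem quad_swap_pairs (s : ι → ℝ) (ρ : ℝ) (f g h e : ι → ℝ) :
    quad s ρ f g h e = quad s ρ h e f g := by
  unfold quad
  calc ∑ i, ∑ j, ∑ k, ∑ l, (if |s i + s j - s k - s l| ≤ ρ then f i * g j * h k * e l else 0)
      = ∑ i, ∑ k, ∑ j, ∑ l, (if |s i + s j - s k - s l| ≤ ρ then f i * g j * h k * e l else 0) := by
        refine Finset.sum_congr rfl fun i _ => ?_
        rw [Finset.sum_comm]
    _ = ∑ k, ∑ i, ∑ j, ∑ l, (if |s i + s j - s k - s l| ≤ ρ then f i * g j * h k * e l else 0) := by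
        rw [Finset.sum_comm]
    _ = ∑ k, ∑ i, ∑ l, ∑ j, (if |s i + s j - s k - s l| ≤ ρ then f i * g j * h k * e l else 0) := by
        refine Finset.sum_congr rfl fun k _ => Finset.sum_congr rfl fun i _ => ?_
        rw [Finset.sum_comm]
    _ = ∑ k, ∑ l, ∑ i, ∑ j, (if |s i + s j - s k - s l| ≤ ρ then f i * g j * h k * e l else 0) := by
        refine Finset.sum_congr rfl fun k _ => ?_
        rw [Finset.sum_comm]
    _ = ∑ k, ∑ l, ∑ i, ∑ j, (if |s k + s l - s i - s j| ≤ ρ then h k * e l * f i * g j else 0) := by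
        refine Finset.sum_congr rfl fun k _ => Finset.sum_congr rfl fun l _ =>
          Finset.sum_congr rfl fun i _ => Finset.sum_congr rfl fun j _ => ?_
        have h1 : |s i + s j - s k - s l| = |s k + s l - s i - s j| := by
          rw [← abs_neg]; congr 1; ring
        rw [h1]
        split_ifs
        · ring
        · rfl

theorem quad_swap12 (s : ι → ℝ) (ρ : ℝ) (f g h e : ι → ℝ) :
    quad s ρ f g h e = quad s ρ g f h e := by
  unfold quad
  rw [Finset.sum_comm]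
  refine Finset.sum_congr rfl fun k _ => Finset.sum_congr rfl fun l _ =>
          Finset.sum_congr rfl fun i _ => Finset.sum_congr rfl fun j _ => ?_
  have h1 : |s l + s k - s i - s j| = |s k + s l - s i - s j| := by
    congr 1; ring
  rw [h1]
  split_ifs
  · ring
  · rfl

theorem quad_swap34 (s : ι → ℝ) (ρ : ℝ) (f g h e : ι → ℝ) :
    quad s ρ f g h e = quad s ρ f g e h := by
  rw [quad_swap_pairs, quad_swap12, quad_swap_pairs]

theorem quad_add1 (s : ι → ℝ) (ρ : ℝ) (f f' g h e : ι → ℝ) :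
    quad s ρ (f + f') g h e = quad s ρ f g h e + quad s ρ f' g h e := by
  unfold quad
  simp only [← Finset.sum_add_distrib]
  refine Finset.sum_congr rfl fun k _ => Finset.sum_congr rfl fun l _ =>
          Finset.sum_congr rfl fun i _ => Finset.sum_congr rfl fun j _ => ?_
  split_ifs
  · simp only [Pi.add_apply]; ring
  · simp

theorem quad_add2 (s : ι → ℝ) (ρ : ℝ) (f g g' h e : ι → ℝ) :
    quad s ρ f (g + g') h e = quad s ρ f g h e + quad s ρ f g' h e := by
  rw [quad_swap12, quad_add1, quad_swap12, quad_swap12 s ρ g' f]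

theorem quad_add3 (s : ι → ℝ) (ρ : ℝ) (f g h h' e : ι → ℝ) :
    quad s ρ f g (h + h') e = quad s ρ f g h e + quad s ρ f g h' e := by
  rw [quad_swap_pairs, quad_add1, quad_swap_pairs, quad_swap_pairs s ρ h' e]

theorem quad_add4 (s : ι → ℝ) (ρ : ℝ) (f g h e e' : ι → ℝ) :
    quad s ρ f g h (e + e') = quad s ρ f g h e + quad s ρ f g h e' := by
  rw [quad_swap34, quad_add3, quad_swap34, quad_swap34 s ρ f g e' h]

theorem quad_neg (s : ι → ℝ) (ρ : ℝ) (f g h e : ι → ℝ) :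
    quad (fun i => - s i) ρ f g h e = quad s ρ f g h e := by
  unfold quad
  refine Finset.sum_congr rfl fun k _ => Finset.sum_congr rfl fun l _ =>
          Finset.sum_congr rfl fun i _ => Finset.sum_congr rfl fun j _ => ?_
  have h1 : |-s k + -s l - -s i - -s j| = |s k + s l - s i - s j| := by
    rw [← abs_neg]; congr 1; ring
  simp only [h1]

theorem quad_smul (s : ι → ℝ) (ρ : ℝ) (c : ℝ) (f g h e : ι → ℝ) :
    quad s ρ (fun i => c * f i) (fun i => c * g i) (fun i => c * h i) (fun i => c * e i)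
      = c ^ 4 * quad s ρ f g h e := by
  unfold quad
  simp only [Finset.mul_sum]
  refine Finset.sum_congr rfl fun k _ => Finset.sum_congr rfl fun l _ =>
          Finset.sum_congr rfl fun i _ => Finset.sum_congr rfl fun j _ => ?_
  split_ifs
  · ring
  · simp

/-- the reflection kernel `κ(i,j)` -/
noncomputable def kap (s : ι → ℝ) (ρ : ℝ) (m : ι → ℝ) (i j : ι) : ℝ :=
  ∑ k, ∑ l, if |s i + s j - s k - s l| ≤ ρ then m k ^ 2 * m l ^ 2 else 0

/-- symmetrisation: `Q ≤ ∑ μ_i μ_j κ(i,j)` -/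
theorem quad_le_kap (s : ι → ℝ) (ρ : ℝ) (m : ι → ℝ) (hm : ∀ i, 0 ≤ m i) :
    quad s ρ (fun i => m i ^ 3) (fun i => m i ^ 3) (fun i => m i ^ 3) (fun i => m i ^ 3) ≤
      ∑ i, ∑ j, m i ^ 4 * m j ^ 4 * kap s ρ m i j := by
  have h1 : quad s ρ (fun i => m i ^ 3) (fun i => m i ^ 3) (fun i => m i ^ 3) (fun i => m i ^ 3) ≤
      (quad s ρ (fun i => m i ^ 4) (fun i => m i ^ 4) (fun i => m i ^ 2) (fun i => m i ^ 2) +
      quad s ρ (fun i => m i ^ 2) (fun i => m i ^ 2) (fun i => m i ^ 4) (fun i => m i ^ 4)) / 2 := by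
    unfold quad
    rw [← Finset.sum_add_distrib, Finset.sum_div]
    refine Finset.sum_le_sum fun i _ => ?_
    rw [← Finset.sum_add_distrib, Finset.sum_div]
    refine Finset.sum_le_sum fun j _ => ?_
    rw [← Finset.sum_add_distrib, Finset.sum_div]
    refine Finset.sum_le_sum fun k _ => ?_
    rw [← Finset.sum_add_distrib, Finset.sum_div]
    refine Finset.sum_le_sum fun l _ => ?_
    split_ifs
    · have hi := hm i
      have hj := hm j
      have hk := hm k
      have hl := hm l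
      have h2 : 0 ≤ (m i * m j * m k * m l) ^ 2 * (m i * m j - m k * m l) ^ 2 := by positivity
      nlinarith [h2]
    · simp
  rw [quad_swap_pairs s ρ (fun i => m i ^ 2) (fun i => m i ^ 2)] at h1
  refine h1.trans (le_of_eq ?_)
  rw [add_self_div_two]
  unfold quad kap
  refine Finset.sum_congr rfl fun i _ => Finset.sum_congr rfl fun j _ => ?_
  rw [Finset.mul_sum]
  refine Finset.sum_congr rfl fun k _ => ?_
  rw [Finset.mul_sum]
  refine Finset.sum_congr rfl fun l _ => ?_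
  split_ifs
  · ring
  · simp

omit [Fintype ι] in
theorem Sep.rel1 {s : ι → ℝ} {ρ : ℝ} (hs : Sep s ρ) (hρ : 0 ≤ ρ) (i j : ι) :
    ∀ k l l', |s i + s j - s k - s l| ≤ ρ → |s i + s j - s k - s l'| ≤ ρ → l = l' :=
  fun _ _ _ h h' => hs.uniq hρ h h'

omit [Fintype ι] in
theorem Sep.rel2 {s : ι → ℝ} {ρ : ℝ} (hs : Sep s ρ) (hρ : 0 ≤ ρ) (i j : ι) :
    ∀ k k' l, |s i + s j - s k - s l| ≤ ρ → |s i + s j - s k' - s l| ≤ ρ → k = k' := by
  intro k k' l h h'
  have e1 : s i + s j - s k - s l = (s i + s j - s l) - s k := by ring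
  have e2 : s i + s j - s k' - s l = (s i + s j - s l) - s k' := by ring
  rw [e1] at h
  rw [e2] at h'
  exact hs.uniq hρ h h'

theorem kap_le {s : ι → ℝ} {ρ : ℝ} (hs : Sep s ρ) (hρ : 0 ≤ ρ) (m : ι → ℝ) (i j : ι) :
    kap s ρ m i j ≤ ∑ k, m k ^ 4 := by
  have h := sum_rel_le (fun k l => |s i + s j - s k - s l| ≤ ρ) (hs.rel1 hρ i j) (hs.rel2 hρ i j)
    (fun k => m k ^ 2) (fun k => m k ^ 2) 1 one_pos
  have e : ∀ k, (m k ^ 2) ^ 2 = m k ^ 4 := fun k => by ring
  simp only [e, one_mul, inv_one] at h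
  unfold kap
  linarith

/-- plain Young: `Q ≤ (∑ m⁴)³` -/
theorem quad_le_cube {s : ι → ℝ} {ρ : ℝ} (hs : Sep s ρ) (hρ : 0 ≤ ρ) (m : ι → ℝ)
    (hm : ∀ i, 0 ≤ m i) :
    quad s ρ (fun i => m i ^ 3) (fun i => m i ^ 3) (fun i => m i ^ 3) (fun i => m i ^ 3) ≤
      (∑ k, m k ^ 4) ^ 3 := by
  refine (quad_le_kap s ρ m hm).trans ?_
  calc ∑ i, ∑ j, m i ^ 4 * m j ^ 4 * kap s ρ m i j
      ≤ ∑ i, ∑ j, m i ^ 4 * m j ^ 4 * ∑ k, m k ^ 4 := by
        refine Finset.sum_le_sum fun i _ => Finset.sum_le_sum fun j _ => ?_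
        exact mul_le_mul_of_nonneg_left (kap_le hs hρ m i j) (by positivity)
    _ = (∑ k, m k ^ 4) ^ 3 := by
        have : ∑ i, ∑ j, m i ^ 4 * m j ^ 4 * ∑ k, m k ^ 4 =
            ∑ i, m i ^ 4 * ((∑ j, m j ^ 4) * ∑ k, m k ^ 4) := by
          refine Finset.sum_congr rfl fun i _ => ?_
          rw [← Finset.sum_mul, ← Finset.mul_sum]; ring
        rw [this, ← Finset.sum_mul]; ring

/-! ### Case A: no dominant index -/

/-- one-sided gain: `e` is an upper quantile -/
theorem quad_le_of_quantile {s : ι → ℝ} {ρ : ℝ} (hs : Sep s ρ) (hρ : 0 ≤ ρ) (m : ι → ℝ)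
    (hm : ∀ i, 0 ≤ m i) (hM : ∑ k, m k ^ 4 = 1) (e : ι)
    (hb1 : (1:ℝ) / 1024 ≤ ∑ k, if s e ≤ s k then m k ^ 4 else 0)
    (hb2 : ∑ k, (if s e ≤ s k then m k ^ 4 else 0) ≤ 513 / 1024)
    (hB : ∑ k, (if s e < s k then m k ^ 4 else 0) ≤ 1 / 1024) :
    quad s ρ (fun i => m i ^ 3) (fun i => m i ^ 3) (fun i => m i ^ 3) (fun i => m i ^ 3) ≤
      1 - 3 / 8 * (1 / 1024) ^ 2 := by
  classical
  set b : ℝ := ∑ k, (if s e ≤ s k then m k ^ 4 else 0) with hb
  -- the kernel for pairs above `e`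
  have hkap : ∀ i j, s e ≤ s i → s e ≤ s j → kap s ρ m i j ≤ 5 / 8 := by
    intro i j hi hj
    set u1 : ι → ℝ := fun k => if s e ≤ s k then m k ^ 2 else 0 with hu1
    set u2 : ι → ℝ := fun k => if s e ≤ s k then 0 else m k ^ 2 with hu2
    set u3 : ι → ℝ := fun k => if s e < s k then m k ^ 2 else 0 with hu3
    have hpt : ∀ k l, (if |s i + s j - s k - s l| ≤ ρ then m k ^ 2 * m l ^ 2 else 0) ≤
        (if |s i + s j - s k - s l| ≤ ρ then u1 k * u1 l else 0) +
        (if |s i + s j - s k - s l| ≤ ρ then u2 k * u3 l else 0) +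
        (if |s i + s j - s k - s l| ≤ ρ then u3 k * u2 l else 0) := by
      intro k l
      split_ifs with h
      · have h1 : 0 ≤ u1 k * u1 l := by
          simp only [hu1]; split_ifs <;> positivity
        have h2 : 0 ≤ u2 k * u3 l := by
          simp only [hu2, hu3]; split_ifs <;> positivity
        have h3 : 0 ≤ u3 k * u2 l := by
          simp only [hu2, hu3]; split_ifs <;> positivity
        have habs := abs_le.mp h
        by_cases hk : s e ≤ s k
        · by_cases hl : s e ≤ s l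
          · have : u1 k * u1 l = m k ^ 2 * m l ^ 2 := by simp [hu1, hk, hl]
            linarith
          · have hne : l ≠ e := by rintro rfl; exact hl le_rfl
            have hsep := hs l e hne
            push Not at hl
            rw [abs_of_neg (by linarith)] at hsep
            have hk' : s e < s k := by linarith [habs.2]
            have : u3 k * u2 l = m k ^ 2 * m l ^ 2 := by simp [hu2, hu3, hk', not_le.mpr hl]
            linarith
        · have hne : k ≠ e := by rintro rfl; exact hk le_rfl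
          have hsep := hs k e hne
          push Not at hk
          rw [abs_of_neg (by linarith)] at hsep
          have hl' : s e < s l := by linarith [habs.2]
          have : u2 k * u3 l = m k ^ 2 * m l ^ 2 := by simp [hu2, hu3, hl', not_le.mpr hk]
          linarith
      · simp
    have hsq1 : ∑ k, u1 k ^ 2 = b := by
      rw [hb]
      refine Finset.sum_congr rfl fun k _ => ?_
      simp only [hu1]; split_ifs
      · ring
      · simp
    have hsq2 : ∑ k, u2 k ^ 2 ≤ 1 := by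
      rw [← hM]
      refine Finset.sum_le_sum fun k _ => ?_
      simp only [hu2]; split_ifs
      · have : 0 ≤ m k ^ 4 := by positivity
        simpa using this
      · exact le_of_eq (by ring)
    have hsq3 : ∑ k, u3 k ^ 2 ≤ 1 / 1024 := by
      refine le_trans (le_of_eq ?_) hB
      refine Finset.sum_congr rfl fun k _ => ?_
      simp only [hu3]; split_ifs
      · ring
      · simp
    have A1 := sum_rel_le (fun k l => |s i + s j - s k - s l| ≤ ρ) (hs.rel1 hρ i j)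
      (hs.rel2 hρ i j) u1 u1 1 one_pos
    have A2 := sum_rel_le (fun k l => |s i + s j - s k - s l| ≤ ρ) (hs.rel1 hρ i j)
      (hs.rel2 hρ i j) u2 u3 (1/32) (by norm_num)
    have A3 := sum_rel_le (fun k l => |s i + s j - s k - s l| ≤ ρ) (hs.rel1 hρ i j)
      (hs.rel2 hρ i j) u3 u2 32 (by norm_num)
    rw [hsq1] at A1
    have hsum : kap s ρ m i j ≤
        (∑ k, ∑ l, if |s i + s j - s k - s l| ≤ ρ then u1 k * u1 l else 0) +
        (∑ k, ∑ l, if |s i + s j - s k - s l| ≤ ρ then u2 k * u3 l else 0) +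
        (∑ k, ∑ l, if |s i + s j - s k - s l| ≤ ρ then u3 k * u2 l else 0) := by
      unfold kap
      simp only [← Finset.sum_add_distrib]
      exact Finset.sum_le_sum fun k _ => Finset.sum_le_sum fun l _ => hpt k l
    norm_num at A1 A2 A3
    linarith
  have hkap1 : ∀ i j, kap s ρ m i j ≤ 1 := fun i j => hM ▸ kap_le hs hρ m i j
  refine (quad_le_kap s ρ m hm).trans ?_
  have hpt : ∀ i j, m i ^ 4 * m j ^ 4 * kap s ρ m i j ≤
      m i ^ 4 * m j ^ 4 - 3 / 8 * ((if s e ≤ s i then m i ^ 4 else 0) *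
        (if s e ≤ s j then m j ^ 4 else 0)) := by
    intro i j
    have h0 : 0 ≤ m i ^ 4 * m j ^ 4 := by positivity
    by_cases hi : s e ≤ s i
    · by_cases hj : s e ≤ s j
      · rw [if_pos hi, if_pos hj]
        nlinarith [hkap i j hi hj]
      · rw [if_neg hj]
        nlinarith [hkap1 i j]
    · rw [if_neg hi]
      nlinarith [hkap1 i j]
  calc ∑ i, ∑ j, m i ^ 4 * m j ^ 4 * kap s ρ m i j
      ≤ ∑ i, ∑ j, (m i ^ 4 * m j ^ 4 - 3 / 8 * ((if s e ≤ s i then m i ^ 4 else 0) *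
        (if s e ≤ s j then m j ^ 4 else 0))) :=
        Finset.sum_le_sum fun i _ => Finset.sum_le_sum fun j _ => hpt i j
    _ = (∑ i, m i ^ 4) * (∑ j, m j ^ 4) - 3 / 8 * (b * b) := by
        simp only [Finset.sum_sub_distrib, ← Finset.mul_sum]
        rw [← Finset.sum_mul, ← Finset.sum_mul]
    _ ≤ 1 - 3 / 8 * (1 / 1024) ^ 2 := by
        rw [hM]
        nlinarith [hb1]

/-- existence of an upper quantile above `x` -/
theorem exists_quantile (s : ι → ℝ) (μ : ι → ℝ) (θ : ℝ) (hθ : 0 < θ) (x : ℝ)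
    (hx : θ ≤ ∑ k, if x < s k then μ k else 0) :
    ∃ e, x < s e ∧ θ ≤ (∑ k, if s e ≤ s k then μ k else 0) ∧
      (∑ k, if s e < s k then μ k else 0) < θ := by
  classical
  -- one step: the smallest point above `y`
  have step : ∀ y : ℝ, θ ≤ (∑ k, if y < s k then μ k else 0) →
      ∃ e, y < s e ∧ θ ≤ (∑ k, if s e ≤ s k then μ k else 0) := by
    intro y hy
    have hne : (Finset.univ.filter fun k => y < s k).Nonempty := by
      by_contra hcon
      rw [Finset.not_nonempty_iff_eq_empty] at hcon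
      rw [← Finset.sum_filter, hcon, Finset.sum_empty] at hy
      linarith
    obtain ⟨e, he, hmin⟩ := Finset.exists_min_image _ s hne
    rw [Finset.mem_filter] at he
    refine ⟨e, he.2, hy.trans (le_of_eq ?_)⟩
    refine Finset.sum_congr rfl fun k _ => ?_
    by_cases hk : y < s k
    · rw [if_pos hk, if_pos (hmin k (by simp [hk]))]
    · rw [if_neg hk, if_neg]
      intro h
      exact hk (he.2.trans_le h)
  set E := Finset.univ.filter fun e => x < s e ∧ θ ≤ (∑ k, if s e ≤ s k then μ k else 0) with hE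
  have hEne : E.Nonempty := by
    obtain ⟨e, h1, h2⟩ := step x hx
    exact ⟨e, by rw [hE, Finset.mem_filter]; exact ⟨Finset.mem_univ _, h1, h2⟩⟩
  obtain ⟨e, he, hmax⟩ := Finset.exists_max_image E s hEne
  have he' : x < s e ∧ θ ≤ (∑ k, if s e ≤ s k then μ k else 0) := by
    rw [hE, Finset.mem_filter] at he; exact he.2
  refine ⟨e, he'.1, he'.2, ?_⟩
  by_contra hcon
  push Not at hcon
  obtain ⟨e', h1, h2⟩ := step (s e) hcon
  have : e' ∈ E := by
    rw [hE, Finset.mem_filter]; exact ⟨Finset.mem_univ _, he'.1.trans h1, h2⟩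
  have := hmax e' this
  linarith

/-- Case A with the mass above a heaviest index -/
theorem quad_le_of_spread_right {s : ι → ℝ} {ρ : ℝ} (hs : Sep s ρ) (hρ : 0 ≤ ρ) (m : ι → ℝ)
    (hm : ∀ i, 0 ≤ m i) (hM : ∑ k, m k ^ 4 = 1) (i0 : ι) (hmax : ∀ i, m i ≤ m i0)
    (hr : (1:ℝ) / 1024 ≤ ∑ k, if s i0 < s k then m k ^ 4 else 0) :
    quad s ρ (fun i => m i ^ 3) (fun i => m i ^ 3) (fun i => m i ^ 3) (fun i => m i ^ 3) ≤
      1 - 3 / 8 * (1 / 1024) ^ 2 := by
  classical
  obtain ⟨e, he1, he2, he3⟩ := exists_quantile s (fun k => m k ^ 4) (1/1024) (by norm_num) (s i0) hr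
  refine quad_le_of_quantile hs hρ m hm hM e he2 ?_ he3.le
  have hinj := hs.inj hρ
  have hne : i0 ≠ e := by rintro rfl; exact lt_irrefl _ he1
  -- `b ≤ 1 - μ i0`
  have hb1 : ∑ k, (if s e ≤ s k then m k ^ 4 else 0) ≤ 1 - m i0 ^ 4 := by
    have h1 : ∑ k, (if s e ≤ s k then m k ^ 4 else 0) + ∑ k, (if k = i0 then m k ^ 4 else 0) ≤
        ∑ k, m k ^ 4 := by
      rw [← Finset.sum_add_distrib]
      refine Finset.sum_le_sum fun k _ => ?_
      have h0 : 0 ≤ m k ^ 4 := by positivity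
      by_cases hk : k = i0
      · rw [if_pos hk, if_neg (by rw [hk]; exact not_le.mpr he1)]; linarith
      · rw [if_neg hk]; split_ifs <;> linarith
    rw [Finset.sum_ite_eq' Finset.univ i0 (fun k => m k ^ 4), if_pos (Finset.mem_univ _), hM] at h1
    linarith
  -- `b ≤ μ e + μ (> e)`
  have hb2 : ∑ k, (if s e ≤ s k then m k ^ 4 else 0) ≤ m e ^ 4 + 1 / 1024 := by
    have h1 : ∑ k, (if s e ≤ s k then m k ^ 4 else 0) =
        ∑ k, (if k = e then m k ^ 4 else 0) + ∑ k, (if s e < s k then m k ^ 4 else 0) := by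
      rw [← Finset.sum_add_distrib]
      refine Finset.sum_congr rfl fun k _ => ?_
      by_cases hk : k = e
      · subst hk; simp
      · have : s e ≤ s k ↔ s e < s k := by
          constructor
          · intro h
            exact lt_of_le_of_ne h (fun h' => hk (hinj h'.symm))
          · exact le_of_lt
        simp only [this, if_neg hk, zero_add]
    rw [h1, Finset.sum_ite_eq' Finset.univ e (fun k => m k ^ 4), if_pos (Finset.mem_univ _)]
    linarith
  have h4 : m e ^ 4 ≤ m i0 ^ 4 := pow_le_pow_left₀ (hm e) (hmax e) 4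
  by_cases h5 : m i0 ^ 4 ≤ 1 / 2
  · linarith
  · push Not at h5
    linarith

/-- Case A: if no index has mass `> 255/256`, then `Q ≤ 1 - η` -/
theorem quad_le_of_spread {s : ι → ℝ} {ρ : ℝ} (hs : Sep s ρ) (hρ : 0 ≤ ρ) (m : ι → ℝ)
    (hm : ∀ i, 0 ≤ m i) (hM : ∑ k, m k ^ 4 = 1) (i0 : ι) (hmax : ∀ i, m i ≤ m i0)
    (ht : m i0 ^ 4 ≤ 255 / 256) :
    quad s ρ (fun i => m i ^ 3) (fun i => m i ^ 3) (fun i => m i ^ 3) (fun i => m i ^ 3) ≤
      1 - 3 / 8 * (1 / 1024) ^ 2 := by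
  classical
  have hinj := hs.inj hρ
  have hsplit : ∑ k, m k ^ 4 = ∑ k, (if k = i0 then m k ^ 4 else 0) +
      ∑ k, (if s i0 < s k then m k ^ 4 else 0) + ∑ k, (if s k < s i0 then m k ^ 4 else 0) := by
    rw [← Finset.sum_add_distrib, ← Finset.sum_add_distrib]
    refine Finset.sum_congr rfl fun k _ => ?_
    by_cases hk : k = i0
    · subst hk; simp
    · rcases lt_or_gt_of_ne (fun h => hk (hinj h) : s k ≠ s i0) with h | h
      · simp [hk, h, not_lt.mpr h.le]
      · simp [hk, h, not_lt.mpr h.le]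
  rw [Finset.sum_ite_eq' Finset.univ i0 (fun k => m k ^ 4), if_pos (Finset.mem_univ _), hM]
    at hsplit
  by_cases hr : (1:ℝ) / 1024 ≤ ∑ k, if s i0 < s k then m k ^ 4 else 0
  · exact quad_le_of_spread_right hs hρ m hm hM i0 hmax hr
  · push Not at hr
    have hl : (1:ℝ) / 1024 ≤ ∑ k, if s k < s i0 then m k ^ 4 else 0 := by linarith
    have h := quad_le_of_spread_right (s := fun i => - s i) hs.neg hρ m hm hM i0 hmax (by
      simpa using hl)
    rwa [quad_neg] at h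

/-! ### Case B: one dominant index -/

/-- a triple sum over a relation that is a partial function of each pair -/
theorem sum3_rel_le (R : ι → ι → ι → Prop) [∀ j k l, Decidable (R j k l)]
    (h1 : ∀ j k l l', R j k l → R j k l' → l = l') (h2 : ∀ j k k' l, R j k l → R j k' l → k = k')
    (h3 : ∀ j j' k l, R j k l → R j' k l → j = j')
    (n : ι → ℝ) (hn : ∀ i, 0 ≤ n i) (τ : ℝ) (hτ : ∀ i, n i ≤ τ) :
    ∑ j, ∑ k, ∑ l, (if R j k l then n j ^ 3 * n k ^ 3 * n l ^ 3 else 0) ≤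
      τ * (∑ k, n k ^ 4) ^ 2 := by
  have hpt : ∀ j k l, (if R j k l then n j ^ 3 * n k ^ 3 * n l ^ 3 else 0) ≤
      (if R j k l then τ / 3 * (n j ^ 4 * n k ^ 4) else 0) +
      (if R j k l then τ / 3 * (n j ^ 4 * n l ^ 4) else 0) +
      (if R j k l then τ / 3 * (n k ^ 4 * n l ^ 4) else 0) := by
    intro j k l
    split_ifs
    · have hj := hn j
      have hk := hn k
      have hl := hn l
      have key : ∀ x y z : ℝ, 0 ≤ x → 0 ≤ y → 0 ≤ z →
          3 * (x * y * z) ^ 2 ≤ (x * y) ^ 3 + (x * z) ^ 3 + (y * z) ^ 3 := by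
        intro x y z hx hy hz
        have hu : 0 ≤ x * y := mul_nonneg hx hy
        have hv : 0 ≤ x * z := mul_nonneg hx hz
        have hw : 0 ≤ y * z := mul_nonneg hy hz
        have e : (x * y * z) ^ 2 = (x * y) * (x * z) * (y * z) := by ring
        rw [e]
        nlinarith [mul_nonneg (add_nonneg (add_nonneg hu hv) hw)
          (add_nonneg (add_nonneg (sq_nonneg (x * y - x * z)) (sq_nonneg (x * y - y * z)))
            (sq_nonneg (x * z - y * z)))]
      have h := mul_le_mul_of_nonneg_left (key _ _ _ hj hk hl)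
        (by positivity : 0 ≤ n j * n k * n l / 3)
      have e1 : n j * n k * n l / 3 * (3 * (n j * n k * n l) ^ 2) = n j ^ 3 * n k ^ 3 * n l ^ 3 := by
        ring
      rw [e1] at h
      refine h.trans ?_
      have b1 : n j ^ 4 * n k ^ 4 * n l ≤ n j ^ 4 * n k ^ 4 * τ :=
        mul_le_mul_of_nonneg_left (hτ l) (by positivity)
      have b2 : n j ^ 4 * n l ^ 4 * n k ≤ n j ^ 4 * n l ^ 4 * τ :=
        mul_le_mul_of_nonneg_left (hτ k) (by positivity)
      have b3 : n k ^ 4 * n l ^ 4 * n j ≤ n k ^ 4 * n l ^ 4 * τ :=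
        mul_le_mul_of_nonneg_left (hτ j) (by positivity)
      nlinarith [b1, b2, b3]
    · simp
  have hτ0 : ∀ i : ι, 0 ≤ τ := fun i => (hn i).trans (hτ i)
  have hsq : (∑ k, n k ^ 4) ^ 2 = ∑ j, ∑ k, n j ^ 4 * n k ^ 4 := by
    rw [sq, Finset.sum_mul_sum]
  have A1 : ∑ j, ∑ k, ∑ l, (if R j k l then τ / 3 * (n j ^ 4 * n k ^ 4) else 0) ≤
      τ / 3 * (∑ k, n k ^ 4) ^ 2 := by
    rw [hsq, Finset.mul_sum]
    refine Finset.sum_le_sum fun j _ => ?_
    rw [Finset.mul_sum]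
    refine Finset.sum_le_sum fun k _ => ?_
    have := hτ0 j
    exact sum_ite_le (fun l => R j k l) (h1 j k) _ _ (by positivity) (fun _ _ => le_rfl)
  have A2 : ∑ j, ∑ k, ∑ l, (if R j k l then τ / 3 * (n j ^ 4 * n l ^ 4) else 0) ≤
      τ / 3 * (∑ k, n k ^ 4) ^ 2 := by
    rw [hsq, Finset.mul_sum]
    refine Finset.sum_le_sum fun j _ => ?_
    rw [Finset.mul_sum, Finset.sum_comm]
    refine Finset.sum_le_sum fun l _ => ?_
    have := hτ0 j
    exact sum_ite_le (fun k => R j k l) (fun k k' => h2 j k k' l) _ _ (by positivity)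
      (fun _ _ => le_rfl)
  have A3 : ∑ j, ∑ k, ∑ l, (if R j k l then τ / 3 * (n k ^ 4 * n l ^ 4) else 0) ≤
      τ / 3 * (∑ k, n k ^ 4) ^ 2 := by
    rw [hsq, Finset.mul_sum, Finset.sum_comm]
    refine Finset.sum_le_sum fun k _ => ?_
    rw [Finset.mul_sum, Finset.sum_comm]
    refine Finset.sum_le_sum fun l _ => ?_
    have := hτ0 k
    exact sum_ite_le (fun j => R j k l) (fun j j' => h3 j j' k l) _ _ (by positivity)
      (fun _ _ => le_rfl)
  calc ∑ j, ∑ k, ∑ l, (if R j k l then n j ^ 3 * n k ^ 3 * n l ^ 3 else 0)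
      ≤ ∑ j, ∑ k, ∑ l, ((if R j k l then τ / 3 * (n j ^ 4 * n k ^ 4) else 0) +
          (if R j k l then τ / 3 * (n j ^ 4 * n l ^ 4) else 0) +
          (if R j k l then τ / 3 * (n k ^ 4 * n l ^ 4) else 0)) :=
        Finset.sum_le_sum fun j _ => Finset.sum_le_sum fun k _ =>
          Finset.sum_le_sum fun l _ => hpt j k l
    _ = _ := by simp only [Finset.sum_add_distrib]; rfl
    _ ≤ τ / 3 * (∑ k, n k ^ 4) ^ 2 + τ / 3 * (∑ k, n k ^ 4) ^ 2 + τ / 3 * (∑ k, n k ^ 4) ^ 2 := by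
        linarith
    _ = τ * (∑ k, n k ^ 4) ^ 2 := by ring

/-- perturbation expansion around a dominant index -/
theorem quad_le_expand [DecidableEq ι] {s : ι → ℝ} {ρ : ℝ} (hs : Sep s ρ) (hρ : 0 ≤ ρ) (m : ι → ℝ)
    (hm : ∀ i, 0 ≤ m i) (i0 : ι) (τ : ℝ) (hτ0 : 0 ≤ τ) (hτ : ∀ i, i ≠ i0 → m i ≤ τ) (t : ℝ)
    (ht : t = ∑ k, if k = i0 then 0 else m k ^ 4) :
    quad s ρ (fun i => m i ^ 3) (fun i => m i ^ 3) (fun i => m i ^ 3) (fun i => m i ^ 3) ≤
      m i0 ^ 12 + 6 * m i0 ^ 6 * τ ^ 2 * t + 4 * m i0 ^ 3 * τ * t ^ 2 + t ^ 3 := by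
  set n : ι → ℝ := fun i => if i = i0 then 0 else m i with hn
  have hn0 : ∀ i, 0 ≤ n i := by intro i; simp only [hn]; split_ifs; exacts [le_rfl, hm i]
  have hnτ : ∀ i, n i ≤ τ := by
    intro i; simp only [hn]; split_ifs with h
    · exact hτ0
    · exact hτ i h
  have ht' : t = ∑ k, n k ^ 4 := by
    rw [ht]; refine Finset.sum_congr rfl fun k _ => ?_
    simp only [hn]; split_ifs <;> simp
  set f0 : ι → ℝ := fun i => if i = i0 then m i0 ^ 3 else 0 with hf0
  set f1 : ι → ℝ := fun i => n i ^ 3 with hf1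
  have hsum : (fun i => m i ^ 3) = f0 + f1 := by
    funext i
    simp only [hf0, hf1, hn, Pi.add_apply]
    split_ifs with h
    · subst h; simp
    · simp
  -- collapse the first index
  have hcol : ∀ g h e : ι → ℝ, quad s ρ f0 g h e =
      ∑ j, ∑ k, ∑ l, if |s i0 + s j - s k - s l| ≤ ρ then m i0 ^ 3 * g j * h k * e l else 0 := by
    intro g h e
    unfold quad
    rw [Finset.sum_eq_single i0]
    · refine Finset.sum_congr rfl fun k _ => Finset.sum_congr rfl fun l _ =>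
          Finset.sum_congr rfl fun i _ => ?_
      simp [hf0]
    · intro b _ hb
      simp [hf0, hb]
    · intro h; exact absurd (Finset.mem_univ _) h
  have hm0 := hm i0
  -- 0000
  have T0 : quad s ρ f0 f0 f0 f0 ≤ m i0 ^ 12 := by
    rw [hcol, Finset.sum_eq_single i0, Finset.sum_eq_single i0, Finset.sum_eq_single i0]
    · simp only [hf0, if_true]
      split_ifs
      · exact le_of_eq (by ring)
      · positivity
    · intro b _ hb; simp [hf0, hb]
    · intro h; exact absurd (Finset.mem_univ _) h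
    · intro b _ hb; simp [hf0, hb]
    · intro h; exact absurd (Finset.mem_univ _) h
    · intro b _ hb; simp [hf0, hb]
    · intro h; exact absurd (Finset.mem_univ _) h
  -- 000x
  have T1 : quad s ρ f0 f0 f0 f1 = 0 := by
    rw [hcol, Finset.sum_eq_single i0, Finset.sum_eq_single i0]
    · refine Finset.sum_eq_zero fun l _ => ?_
      split_ifs with h
      · have : l = i0 := by
          have e : s i0 + s i0 - s i0 - s l = s i0 - s l := by ring
          rw [e] at h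
          exact (hs.uniq hρ (x := s i0) h (by simpa using hρ))
        simp [hf1, hn, this]
      · rfl
    · intro b _ hb; simp [hf0, hb]
    · intro h; exact absurd (Finset.mem_univ _) h
    · intro b _ hb; simp [hf0, hb]
    · intro h; exact absurd (Finset.mem_univ _) h
  have hsix : ∑ k, f1 k ^ 2 ≤ τ ^ 2 * t := by
    rw [ht', Finset.mul_sum]
    refine Finset.sum_le_sum fun k _ => ?_
    have h1 : n k ^ 2 ≤ τ ^ 2 := pow_le_pow_left₀ (hn0 k) (hnτ k) 2
    have h2 : 0 ≤ n k ^ 4 := by have := hn0 k; positivity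
    have : f1 k ^ 2 = n k ^ 2 * n k ^ 4 := by simp only [hf1]; ring
    rw [this]; exact mul_le_mul_of_nonneg_right h1 h2
  have hf1nn : ∀ k, 0 ≤ f1 k := fun k => pow_nonneg (hn0 k) 3
  -- 00xx
  have T2 : quad s ρ f0 f0 f1 f1 ≤ m i0 ^ 6 * τ ^ 2 * t := by
    rw [hcol, Finset.sum_eq_single i0]
    · have h := sum_rel_le (fun k l => |s i0 + s i0 - s k - s l| ≤ ρ) (hs.rel1 hρ i0 i0)
        (hs.rel2 hρ i0 i0) f1 f1 1 one_pos
      have e : ∑ k, ∑ l, (if |s i0 + s i0 - s k - s l| ≤ ρ then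
            m i0 ^ 3 * f0 i0 * f1 k * f1 l else 0) =
          m i0 ^ 6 * ∑ k, ∑ l, (if |s i0 + s i0 - s k - s l| ≤ ρ then f1 k * f1 l else 0) := by
        rw [Finset.mul_sum]
        refine Finset.sum_congr rfl fun k _ => ?_
        rw [Finset.mul_sum]
        refine Finset.sum_congr rfl fun l _ => ?_
        split_ifs
        · simp only [hf0, if_true]; ring
        · simp
      rw [e]
      have h6 : 0 ≤ m i0 ^ 6 := by positivity
      calc m i0 ^ 6 * ∑ k, ∑ l, (if |s i0 + s i0 - s k - s l| ≤ ρ then f1 k * f1 l else 0)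
          ≤ m i0 ^ 6 * (τ ^ 2 * t) := by
            refine mul_le_mul_of_nonneg_left ?_ h6
            rw [one_mul, inv_one, one_mul] at h
            linarith
        _ = m i0 ^ 6 * τ ^ 2 * t := by ring
    · intro b _ hb; simp [hf0, hb]
    · intro h; exact absurd (Finset.mem_univ _) h
  -- 0x0x
  have T3 : quad s ρ f0 f1 f0 f1 ≤ m i0 ^ 6 * τ ^ 2 * t := by
    rw [hcol]
    have e : ∑ j, ∑ k, ∑ l, (if |s i0 + s j - s k - s l| ≤ ρ then
            m i0 ^ 3 * f1 j * f0 k * f1 l else 0) =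
          m i0 ^ 6 * ∑ j, ∑ l, (if |s i0 + s j - s i0 - s l| ≤ ρ then f1 j * f1 l else 0) := by
      rw [Finset.mul_sum]
      refine Finset.sum_congr rfl fun j _ => ?_
      rw [Finset.mul_sum, Finset.sum_eq_single i0]
      · refine Finset.sum_congr rfl fun l _ => ?_
        split_ifs
        · simp only [hf0, if_true]; ring
        · simp
      · intro b _ hb; simp [hf0, hb]
      · intro h; exact absurd (Finset.mem_univ _) h
    rw [e]
    have h := sum_rel_le (fun j l => |s i0 + s j - s i0 - s l| ≤ ρ)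
        (fun j l l' h h' => hs.uniq hρ h h')
        (fun j j' l h h' => by
          have e1 : |s i0 + s j - s i0 - s l| = |s l - s j| := by
            rw [← abs_neg]; congr 1; ring
          have e2 : |s i0 + s j' - s i0 - s l| = |s l - s j'| := by
            rw [← abs_neg]; congr 1; ring
          rw [e1] at h
          rw [e2] at h'
          exact hs.uniq hρ h h') f1 f1 1 one_pos
    have h6 : 0 ≤ m i0 ^ 6 := by positivity
    calc m i0 ^ 6 * ∑ k, ∑ l, (if |s i0 + s k - s i0 - s l| ≤ ρ then f1 k * f1 l else 0)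
          ≤ m i0 ^ 6 * (τ ^ 2 * t) := by
            refine mul_le_mul_of_nonneg_left ?_ h6
            rw [one_mul, inv_one, one_mul] at h
            linarith
        _ = m i0 ^ 6 * τ ^ 2 * t := by ring
  -- 0xxx
  have T4 : quad s ρ f0 f1 f1 f1 ≤ m i0 ^ 3 * τ * t ^ 2 := by
    rw [hcol]
    have h := sum3_rel_le (fun j k l => |s i0 + s j - s k - s l| ≤ ρ)
      (fun j k l l' h h' => hs.uniq hρ h h') (fun j k k' l h h' => hs.rel2 hρ i0 j k k' l h h')
      (fun j j' k l h h' => by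
          have e1 : |s i0 + s j - s k - s l| = |(s k + s l - s i0) - s j| := by
            rw [← abs_neg]; congr 1; ring
          have e2 : |s i0 + s j' - s k - s l| = |(s k + s l - s i0) - s j'| := by
            rw [← abs_neg]; congr 1; ring
          rw [e1] at h
          rw [e2] at h'
          exact hs.uniq hρ h h') n hn0 τ hnτ
    rw [← ht'] at h
    have e : ∑ j, ∑ k, ∑ l, (if |s i0 + s j - s k - s l| ≤ ρ then
            m i0 ^ 3 * f1 j * f1 k * f1 l else 0) =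
          m i0 ^ 3 * ∑ j, ∑ k, ∑ l, (if |s i0 + s j - s k - s l| ≤ ρ then
            n j ^ 3 * n k ^ 3 * n l ^ 3 else 0) := by
      rw [Finset.mul_sum]
      refine Finset.sum_congr rfl fun j _ => ?_
      rw [Finset.mul_sum]
      refine Finset.sum_congr rfl fun k _ => ?_
      rw [Finset.mul_sum]
      refine Finset.sum_congr rfl fun l _ => ?_
      split_ifs
      · simp only [hf1]; ring
      · simp
    rw [e]
    calc _ ≤ m i0 ^ 3 * (τ * t ^ 2) := mul_le_mul_of_nonneg_left h (by positivity)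
      _ = m i0 ^ 3 * τ * t ^ 2 := by ring
  -- xxxx
  have T5 : quad s ρ f1 f1 f1 f1 ≤ t ^ 3 := by
    rw [ht']; exact quad_le_cube hs hρ n hn0
  rw [hsum]
  simp only [quad_add1, quad_add2, quad_add3, quad_add4]
  have s1 : quad s ρ f0 f0 f1 f0 = 0 := by rw [quad_swap34, T1]
  have s2 : quad s ρ f0 f1 f0 f0 = 0 := by rw [quad_swap_pairs, T1]
  have s3 : quad s ρ f1 f0 f0 f0 = 0 := by rw [quad_swap12, s2]
  have s4 : quad s ρ f1 f1 f0 f0 ≤ m i0 ^ 6 * τ ^ 2 * t := by rw [quad_swap_pairs]; exact T2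
  have s5 : quad s ρ f0 f1 f1 f0 ≤ m i0 ^ 6 * τ ^ 2 * t := by rw [quad_swap34]; exact T3
  have s6 : quad s ρ f1 f0 f0 f1 ≤ m i0 ^ 6 * τ ^ 2 * t := by rw [quad_swap12]; exact T3
  have s7 : quad s ρ f1 f0 f1 f0 ≤ m i0 ^ 6 * τ ^ 2 * t := by rw [quad_swap12]; exact s5
  have s8 : quad s ρ f1 f0 f1 f1 ≤ m i0 ^ 3 * τ * t ^ 2 := by rw [quad_swap12]; exact T4
  have s9 : quad s ρ f1 f1 f0 f1 ≤ m i0 ^ 3 * τ * t ^ 2 := by rw [quad_swap_pairs]; exact T4
  have s10 : quad s ρ f1 f1 f1 f0 ≤ m i0 ^ 3 * τ * t ^ 2 := by rw [quad_swap34]; exact s9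
  linarith

/-! ### The improved inequality -/

/-- the absolute constant -/
noncomputable def cY : ℝ := 1 / 8 * (1 / 1024) ^ 2

theorem cY_pos : 0 < cY := by unfold cY; norm_num

theorem cY_le : cY ≤ 1 / 1000000 := by unfold cY; norm_num

/-- power mean lower bound -/
theorem powmean {κ : Type*} (S : Finset κ) (f : κ → ℝ) (hf : ∀ i ∈ S, 0 ≤ f i) (q ε : ℝ)
    (hq : (S.card : ℝ) ≤ q) (hq1 : 1 ≤ q) (hε : 0 ≤ ε) :
    (∑ i ∈ S, f i) ^ (1 + ε) * q ^ (-ε) ≤ ∑ i ∈ S, f i ^ (1 + ε) := by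
  have h := Real.rpow_sum_le_const_mul_sum_rpow S f (p := 1 + ε) (by linarith)
  have e1 : ∑ i ∈ S, |f i| = ∑ i ∈ S, f i :=
    Finset.sum_congr rfl fun i hi => abs_of_nonneg (hf i hi)
  have e2 : ∑ i ∈ S, |f i| ^ (1 + ε) = ∑ i ∈ S, f i ^ (1 + ε) :=
    Finset.sum_congr rfl fun i hi => by rw [abs_of_nonneg (hf i hi)]
  rw [e1, e2] at h
  have e3 : (1 + ε) - 1 = ε := by ring
  rw [e3] at h
  have hnn : 0 ≤ ∑ i ∈ S, f i ^ (1 + ε) :=
    Finset.sum_nonneg fun i hi => Real.rpow_nonneg (hf i hi) _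
  have h4 : (S.card : ℝ) ^ ε ≤ q ^ ε := Real.rpow_le_rpow (Nat.cast_nonneg _) hq hε
  have hq0 : 0 < q := by linarith
  have h5 : 0 < q ^ ε := Real.rpow_pos_of_pos hq0 _
  rw [Real.rpow_neg hq0.le, ← div_eq_mul_inv, div_le_iff₀ h5]
  calc _ ≤ (S.card : ℝ) ^ ε * ∑ i ∈ S, f i ^ (1 + ε) := h
    _ ≤ q ^ ε * ∑ i ∈ S, f i ^ (1 + ε) := mul_le_mul_of_nonneg_right h4 hnn
    _ = _ := mul_comm _ _

theorem rpow_neg_ge {q ε : ℝ} (hq : 2 ≤ q) (c : ℝ) (hc : ε ≤ c / Real.log q) :
    1 - c ≤ q ^ (-ε) := by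
  have hlog : 0 < Real.log q := Real.log_pos (by linarith)
  have h1 : ε * Real.log q ≤ c := by rwa [le_div_iff₀ hlog] at hc
  rw [Real.rpow_def_of_pos (by linarith)]
  have h2 := Real.add_one_le_exp (Real.log q * -ε)
  have h3 : Real.log q * -ε = -(ε * Real.log q) := by ring
  linarith

/-- numerical step 1 -/
theorem num1 (t w y : ℝ) (htle : t ≤ 1 / 256) (hw0 : 0 ≤ w) (hw1 : w ≤ 1 / 4)
    (hylow : (1 - cY) * (w ^ 5) ≤ y) :
    (1 - t) ^ 3 + 6 * w ^ 6 + 4 * w ^ 9 + w ^ 12 ≤ (1 - t) ^ 3 * (1 + 12 / 5 * y) := by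
  have hc' := cY_le
  have h3 : (98:ℝ) / 100 ≤ (1 - t) ^ 3 := by
    have : (255/256:ℝ) ^ 3 ≤ (1 - t) ^ 3 := pow_le_pow_left₀ (by norm_num) (by linarith) 3
    refine le_trans ?_ this
    norm_num
  have hw5 : 0 ≤ w ^ 5 := by positivity
  have h4 : 6 * w ^ 6 + 4 * w ^ 9 + w ^ 12 ≤ 2 * w ^ 5 := by
    have : 6 * w ^ 6 + 4 * w ^ 9 + w ^ 12 = w ^ 5 * (6 * w + 4 * w ^ 4 + w ^ 7) := by ring
    rw [this, mul_comm (2:ℝ)]
    refine mul_le_mul_of_nonneg_left ?_ hw5
    have a1 : w ^ 4 ≤ (1/4) ^ 4 := pow_le_pow_left₀ hw0 hw1 4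
    have a2 : w ^ 7 ≤ (1/4) ^ 7 := pow_le_pow_left₀ hw0 hw1 7
    norm_num at a1 a2
    linarith
  have h7 : 9 / 10 * w ^ 5 ≤ (1 - cY) * w ^ 5 := mul_le_mul_of_nonneg_right (by linarith) hw5
  have h8 : 9 / 10 * w ^ 5 ≤ y := h7.trans hylow
  have hy0 : 0 ≤ y := le_trans (by positivity) h8
  have h5 : 2 * w ^ 5 ≤ (1 - t) ^ 3 * (12 / 5 * y) := by
    calc 2 * w ^ 5 ≤ 98 / 100 * (12 / 5 * (9 / 10 * w ^ 5)) := by linarith
      _ ≤ 98 / 100 * (12 / 5 * y) := by linarith
      _ ≤ (1 - t) ^ 3 * (12 / 5 * y) := mul_le_mul_of_nonneg_right h3 (by positivity)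
  have h6 : (1 - t) ^ 3 * (1 + 12 / 5 * y) = (1 - t) ^ 3 + (1 - t) ^ 3 * (12 / 5 * y) := by ring
  rw [h6]
  linarith

/-- numerical step 2 -/
theorem num2 (t y ε : ℝ) (ht0 : 0 ≤ t) (htle : t ≤ 1 / 256) (hy0 : 0 ≤ y) (hε : 0 ≤ ε)
    (hε4 : ε ≤ 1 / 4) :
    (1 - t) ^ 3 * (1 + 12 / 5 * y) ≤ ((1 - t) ^ (1 + ε) + y) ^ (3 / (1 + ε)) := by
  have hP2 : (12:ℝ) / 5 ≤ 3 / (1 + ε) := by
    rw [le_div_iff₀ (by linarith)]; linarith
  have h1t : 0 < 1 - t := by linarith
  have hpos : 0 < (1 - t) ^ (1 + ε) := Real.rpow_pos_of_pos h1t _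
  have hle1 : (1 - t) ^ (1 + ε) ≤ 1 := Real.rpow_le_one h1t.le (by linarith) (by linarith)
  have e1 : (1 - t) ^ (1 + ε) + y = (1 - t) ^ (1 + ε) * (1 + y / (1 - t) ^ (1 + ε)) := by
    field_simp
  rw [e1, Real.mul_rpow hpos.le (by positivity), ← Real.rpow_mul h1t.le]
  have e2 : (1 + ε) * (3 / (1 + ε)) = 3 := by field_simp
  rw [e2]
  have e3 : (1 - t) ^ (3:ℝ) = (1 - t) ^ 3 := by norm_cast
  rw [e3]
  refine mul_le_mul_of_nonneg_left ?_ (by positivity)
  have hyy : y ≤ y / (1 - t) ^ (1 + ε) := by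
    rw [le_div_iff₀ hpos]
    exact mul_le_of_le_one_right hy0 hle1
  have hB := one_add_mul_self_le_rpow_one_add (s := y / (1 - t) ^ (1 + ε))
    (by linarith [hyy, hy0]) (p := 3 / (1 + ε)) (by linarith)
  refine le_trans ?_ hB
  have : 12 / 5 * y ≤ 3 / (1 + ε) * (y / (1 - t) ^ (1 + ε)) :=
    mul_le_mul hP2 hyy hy0 (by positivity)
  linarith

/-- normalised improved Young inequality -/
theorem quad_le_normalised {s : ι → ℝ} {ρ : ℝ} (hs : Sep s ρ) (hρ : 0 ≤ ρ) (m : ι → ℝ)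
    (hm : ∀ i, 0 ≤ m i) (hM : ∑ k, m k ^ 4 = 1) (q ε : ℝ) (hq : (Fintype.card ι : ℝ) ≤ q)
    (hq2 : 2 ≤ q) (hε : 0 ≤ ε) (hεc : ε ≤ cY / Real.log q) :
    quad s ρ (fun i => m i ^ 3) (fun i => m i ^ 3) (fun i => m i ^ 3) (fun i => m i ^ 3) ≤
      (∑ i, (m i ^ 4) ^ (1 + ε)) ^ (3 / (1 + ε)) := by
  classical
  have hlog2 : (1:ℝ) / 2 < Real.log 2 := by have := Real.log_two_gt_d9; linarith
  have hlog : (1:ℝ) / 2 < Real.log q := hlog2.trans_le (Real.log_le_log (by norm_num) hq2)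
  have hc := cY_pos
  have hc' := cY_le
  have hε2 : ε ≤ 2 * cY := by
    refine hεc.trans ?_
    rw [div_le_iff₀ (by linarith)]
    nlinarith
  have hε4 : ε ≤ 1 / 4 := by linarith
  have hne : (Finset.univ : Finset ι).Nonempty := by
    by_contra hcon
    rw [Finset.not_nonempty_iff_eq_empty] at hcon
    rw [hcon, Finset.sum_empty] at hM
    exact zero_ne_one hM
  obtain ⟨i0, _, hmax⟩ := Finset.exists_max_image Finset.univ m hne
  have hmax' : ∀ i, m i ≤ m i0 := fun i => hmax i (Finset.mem_univ _)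
  have hq3 : 1 - cY ≤ q ^ (-ε) := rpow_neg_ge hq2 cY hεc
  have hP : (3:ℝ) / (1 + ε) ≤ 3 := by
    rw [div_le_iff₀ (by linarith)]; linarith
  have hP2 : (12:ℝ) / 5 ≤ 3 / (1 + ε) := by
    rw [le_div_iff₀ (by linarith)]; linarith
  by_cases hA : m i0 ^ 4 ≤ 255 / 256
  · refine (quad_le_of_spread hs hρ m hm hM i0 hmax' hA).trans ?_
    have h1 := powmean Finset.univ (fun i => m i ^ 4) (fun i _ => by have := hm i; positivity)
      q ε (by simpa using hq) (by linarith) hε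
    rw [hM, Real.one_rpow, one_mul] at h1
    have hX : 1 - cY ≤ ∑ i, (m i ^ 4) ^ (1 + ε) := hq3.trans h1
    have hX0 : 0 < 1 - cY := by linarith
    calc 1 - 3 / 8 * (1 / 1024) ^ 2 = 1 - 3 * cY := by unfold cY; ring
      _ ≤ (1 - cY) ^ 3 := by
          have : (1 - cY) ^ 3 = 1 - 3 * cY + cY ^ 2 * (3 - cY) := by ring
          have h' : 0 ≤ cY ^ 2 * (3 - cY) := mul_nonneg (sq_nonneg _) (by linarith)
          linarith
      _ = (1 - cY) ^ (3:ℝ) := by norm_cast
      _ ≤ (1 - cY) ^ (3 / (1 + ε)) :=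
          Real.rpow_le_rpow_of_exponent_ge hX0 (by linarith) hP
      _ ≤ (∑ i, (m i ^ 4) ^ (1 + ε)) ^ (3 / (1 + ε)) :=
          Real.rpow_le_rpow hX0.le hX (by positivity)
  · push Not at hA
    set t : ℝ := ∑ k, (if k = i0 then 0 else m k ^ 4) with ht
    have hm0 := hm i0
    have ht1 : m i0 ^ 4 = 1 - t := by
      have : ∑ k, m k ^ 4 = ∑ k, (if k = i0 then m k ^ 4 else 0) + t := by
        rw [ht, ← Finset.sum_add_distrib]
        refine Finset.sum_congr rfl fun k _ => ?_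
        split_ifs <;> simp
      rw [Finset.sum_ite_eq' Finset.univ i0 (fun k => m k ^ 4), if_pos (Finset.mem_univ _), hM]
        at this
      linarith
    have ht0 : 0 ≤ t := Finset.sum_nonneg fun k _ => by
      split_ifs
      · exact le_rfl
      · have := hm k; positivity
    have htle : t ≤ 1 / 256 := by linarith
    -- fourth root of `t`
    set w : ℝ := t ^ ((1:ℝ)/4) with hw
    have hw0 : 0 ≤ w := Real.rpow_nonneg ht0 _
    have hw4 : w ^ 4 = t := by
      rw [hw, ← Real.rpow_natCast, ← Real.rpow_mul ht0]; norm_num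
    have hw1 : w ≤ 1 / 4 := by
      by_contra hcon
      push Not at hcon
      have : (1/4:ℝ) ^ 4 < w ^ 4 := pow_lt_pow_left₀ hcon (by norm_num) (by norm_num)
      rw [hw4] at this
      norm_num at this
      linarith
    have hmw : ∀ i, i ≠ i0 → m i ≤ w := by
      intro i hi
      have h1 : m i ^ 4 ≤ w ^ 4 := by
        rw [hw4, ht]
        have := Finset.single_le_sum (f := fun k => if k = i0 then 0 else m k ^ 4)
          (fun k _ => by
            show 0 ≤ if k = i0 then 0 else m k ^ 4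
            split_ifs
            · exact le_rfl
            · have := hm k; positivity) (Finset.mem_univ i)
        simpa [hi] using this
      exact le_of_pow_le_pow_left₀ (by norm_num) hw0 h1
    have hE := quad_le_expand hs hρ m hm i0 w hw0 hmw t ht
    have hm1 : m i0 ≤ 1 := by
      by_contra hcon
      push Not at hcon
      have : (1:ℝ) ^ 4 < m i0 ^ 4 := pow_lt_pow_left₀ hcon (by norm_num) (by norm_num)
      linarith
    have hm12 : m i0 ^ 12 = (1 - t) ^ 3 := by rw [← ht1]; ring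
    have hm6 : m i0 ^ 6 ≤ 1 := pow_le_one₀ hm0 hm1
    have hm3 : m i0 ^ 3 ≤ 1 := pow_le_one₀ hm0 hm1
    have hQ : quad s ρ (fun i => m i ^ 3) (fun i => m i ^ 3) (fun i => m i ^ 3)
        (fun i => m i ^ 3) ≤ (1 - t) ^ 3 + 6 * w ^ 6 + 4 * w ^ 9 + w ^ 12 := by
      refine hE.trans ?_
      rw [hm12]
      have e1 : 6 * m i0 ^ 6 * w ^ 2 * t ≤ 6 * w ^ 6 := by
        rw [← hw4]
        have : 6 * m i0 ^ 6 * w ^ 2 * w ^ 4 = m i0 ^ 6 * (6 * w ^ 6) := by ring
        rw [this]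
        exact mul_le_of_le_one_left (by positivity) hm6
      have e2 : 4 * m i0 ^ 3 * w * t ^ 2 ≤ 4 * w ^ 9 := by
        rw [← hw4]
        have : 4 * m i0 ^ 3 * w * (w ^ 4) ^ 2 = m i0 ^ 3 * (4 * w ^ 9) := by ring
        rw [this]
        exact mul_le_of_le_one_left (by positivity) hm3
      have e3 : t ^ 3 = w ^ 12 := by rw [← hw4]; ring
      linarith
    refine hQ.trans ?_
    -- lower bound of the right side
    set y : ℝ := ∑ i ∈ Finset.univ.filter (fun i => i ≠ i0), (m i ^ 4) ^ (1 + ε) with hy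
    have hXsplit : ∑ i, (m i ^ 4) ^ (1 + ε) = (1 - t) ^ (1 + ε) + y := by
      rw [hy, ← ht1, Finset.filter_ne' Finset.univ i0,
        ← Finset.add_sum_erase Finset.univ _ (Finset.mem_univ i0)]
    have htsum : ∑ i ∈ Finset.univ.filter (fun i => i ≠ i0), m i ^ 4 = t := by
      rw [ht, Finset.sum_filter]
      refine Finset.sum_congr rfl fun k _ => ?_
      by_cases h : k = i0 <;> simp [h]
    have hylow : (1 - cY) * (w ^ 5) ≤ y := by
      have h1 := powmean (Finset.univ.filter (fun i => i ≠ i0)) (fun i => m i ^ 4)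
        (fun i _ => by have := hm i; positivity) q ε
        (le_trans (by exact_mod_cast Finset.card_le_univ _) hq) (by linarith) hε
      rw [htsum] at h1
      have h2 : w ^ 5 ≤ t ^ (1 + ε) := by
        rcases eq_or_lt_of_le ht0 with h | h
        · have : w = 0 := by
            have : w ^ 4 = 0 := by rw [hw4, ← h]
            exact pow_eq_zero_iff (by norm_num) |>.mp this
          rw [this]; simp; exact Real.rpow_nonneg ht0 _
        · have e5 : w ^ 5 = t ^ ((5:ℝ)/4) := by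
            rw [hw, ← Real.rpow_natCast, ← Real.rpow_mul ht0]; norm_num
          rw [e5]
          exact Real.rpow_le_rpow_of_exponent_ge h (by linarith) (by linarith)
      have hw5 : 0 ≤ w ^ 5 := by positivity
      calc (1 - cY) * w ^ 5 = w ^ 5 * (1 - cY) := mul_comm _ _
        _ ≤ t ^ (1 + ε) * q ^ (-ε) :=
            mul_le_mul h2 hq3 (by linarith) (Real.rpow_nonneg ht0 _)
        _ ≤ y := h1
    have hy0 : 0 ≤ y := le_trans (mul_nonneg (by linarith) (by positivity)) hylow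
    rw [hXsplit]
    exact (num1 t w y htle hw0 hw1 hylow).trans (num2 t y ε ht0 htle hy0 hε hε4)

/-- **Improved Young inequality** (Y1). -/
theorem quad_le_rpow {s : ι → ℝ} {ρ : ℝ} (hs : Sep s ρ) (hρ : 0 ≤ ρ) (a : ι → ℝ)
    (ha : ∀ i, 0 ≤ a i) (q ε : ℝ) (hq : (Fintype.card ι : ℝ) ≤ q)
    (hq2 : 2 ≤ q) (hε : 0 ≤ ε) (hεc : ε ≤ cY / Real.log q) :
    quad s ρ a a a a ≤ (∑ i, a i ^ (4 / 3 * (1 + ε))) ^ (3 / (1 + ε)) := by
  have h1ε : 0 < 1 + ε := by linarith
  set n : ι → ℝ := fun i => a i ^ ((1:ℝ)/3) with hn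
  have hn0 : ∀ i, 0 ≤ n i := fun i => Real.rpow_nonneg (ha i) _
  have hn3 : ∀ i, n i ^ 3 = a i := by
    intro i
    simp only [hn]
    rw [← Real.rpow_natCast, ← Real.rpow_mul (ha i)]; norm_num
  have hn4 : ∀ i, (n i ^ 4) ^ (1 + ε) = a i ^ (4 / 3 * (1 + ε)) := by
    intro i
    simp only [hn]
    rw [← Real.rpow_natCast, ← Real.rpow_mul (ha i), ← Real.rpow_mul (ha i)]
    congr 1
    push_cast
    ring
  set S : ℝ := ∑ i, n i ^ 4 with hS
  have hS0 : 0 ≤ S := Finset.sum_nonneg fun i _ => by have := hn0 i; positivity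
  have hfun : (fun i => n i ^ 3) = a := funext hn3
  rcases eq_or_lt_of_le hS0 with h | hSpos
  · have h0 : quad s ρ a a a a ≤ 0 := by
      have := quad_le_cube hs hρ n hn0
      rw [hfun, ← hS, ← h] at this
      simpa using this
    refine h0.trans (Real.rpow_nonneg ?_ _)
    exact Finset.sum_nonneg fun i _ => Real.rpow_nonneg (ha i) _
  · set r : ℝ := S ^ ((1:ℝ)/4) with hr
    have hr0 : 0 < r := Real.rpow_pos_of_pos hSpos _
    have hr4 : r ^ 4 = S := by
      rw [hr, ← Real.rpow_natCast, ← Real.rpow_mul hS0]; norm_num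
    have hnorm : ∑ i, (n i / r) ^ 4 = 1 := by
      have : ∀ i, (n i / r) ^ 4 = n i ^ 4 / S := fun i => by rw [div_pow, hr4]
      simp only [this]
      rw [← Finset.sum_div, ← hS]
      exact div_self hSpos.ne'
    have h := quad_le_normalised hs hρ (fun i => n i / r) (fun i => div_nonneg (hn0 i) hr0.le)
      hnorm q ε hq hq2 hε hεc
    have e1 : a = fun i => r ^ 3 * (n i / r) ^ 3 := by
      funext i
      rw [div_pow, ← hn3 i]
      field_simp
    have e2 : quad s ρ a a a a = r ^ 12 * quad s ρ (fun i => (n i / r) ^ 3)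
        (fun i => (n i / r) ^ 3) (fun i => (n i / r) ^ 3) (fun i => (n i / r) ^ 3) := by
      conv_lhs => rw [e1]
      rw [quad_smul]
      ring
    have e3 : ∑ i, a i ^ (4 / 3 * (1 + ε)) = S ^ (1 + ε) * ∑ i, ((n i / r) ^ 4) ^ (1 + ε) := by
      rw [Finset.mul_sum]
      refine Finset.sum_congr rfl fun i _ => ?_
      rw [← hn4 i, div_pow, hr4, ← Real.mul_rpow hS0 (div_nonneg (by have := hn0 i; positivity) hS0)]
      congr 1
      field_simp
    have e4 : (S ^ (1 + ε) * ∑ i, ((n i / r) ^ 4) ^ (1 + ε)) ^ (3 / (1 + ε)) =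
        S ^ 3 * (∑ i, ((n i / r) ^ 4) ^ (1 + ε)) ^ (3 / (1 + ε)) := by
      rw [Real.mul_rpow (Real.rpow_nonneg hS0 _)
        (Finset.sum_nonneg fun i _ => Real.rpow_nonneg (by
          have := hn0 i; positivity) _), ← Real.rpow_mul hS0]
      congr 1
      have : (1 + ε) * (3 / (1 + ε)) = 3 := by field_simp
      rw [this]
      norm_cast
    rw [e2, e3, e4]
    have e5 : r ^ 12 = S ^ 3 := by rw [← hr4]; ring
    rw [e5]
    exact mul_le_mul_of_nonneg_left h (by positivity)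

/-- Hölder step: from `(∑ a^p)^{4/p}` to weights -/
theorem holder_weights (a N : ι → ℝ) (ha : ∀ i, 0 ≤ a i) (hN : ∀ i, 0 ≤ N i)
    (h0 : ∀ i, N i = 0 → a i = 0) (ε : ℝ) (hε : 0 ≤ ε) (hε1 : ε ≤ 1) :
    (∑ i, a i ^ (4 / 3 * (1 + ε))) ^ (3 / (1 + ε)) ≤
      (∑ i, N i) ^ (3 / (1 + ε) - 1) * ∑ i, a i ^ 4 / N i ^ (3 / (1 + ε) - 1) := by
  have h1ε : 0 < 1 + ε := by linarith
  set P : ℝ := 3 / (1 + ε) with hP
  have hP1 : 1 < P := by rw [hP, lt_div_iff₀ h1ε]; linarith
  have hP0 : 0 < P := by linarith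
  have hconj : (P / (P - 1)).HolderConjugate P := by
    have := (Real.HolderConjugate.conjExponent hP1).symm
    simpa [Real.conjExponent] using this
  have h := Real.inner_le_Lp_mul_Lq_of_nonneg Finset.univ (f := fun i => N i ^ ((P - 1) / P))
    (g := fun i => (a i ^ 4 / N i ^ (P - 1)) ^ (1 / P)) hconj
    (fun i _ => Real.rpow_nonneg (hN i) _)
    (fun i _ => Real.rpow_nonneg (div_nonneg (by have := ha i; positivity)
      (Real.rpow_nonneg (hN i) _)) _)
  have e1 : ∀ i, N i ^ ((P - 1) / P) * (a i ^ 4 / N i ^ (P - 1)) ^ (1 / P) =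
      a i ^ (4 / 3 * (1 + ε)) := by
    intro i
    have hexp : (4:ℝ) / 3 * (1 + ε) = 4 * (1 / P) := by rw [hP]; field_simp
    rcases eq_or_lt_of_le (hN i) with hi | hi
    · have ha0 := h0 i hi.symm
      rw [ha0]
      rw [Real.zero_rpow (by positivity)]
      simp [hP0.ne']
    · rw [Real.div_rpow (by have := ha i; positivity) (Real.rpow_nonneg hi.le _),
        ← Real.rpow_mul hi.le, ← Real.rpow_natCast (a i) 4, ← Real.rpow_mul (ha i), hexp]
      have : (P - 1) * (1 / P) = (P - 1) / P := by ring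
      rw [this]
      have hne : N i ^ ((P - 1) / P) ≠ 0 := (Real.rpow_pos_of_pos hi _).ne'
      push_cast
      field_simp
  have e2 : ∀ i, (N i ^ ((P - 1) / P)) ^ (P / (P - 1)) = N i := by
    intro i
    rw [← Real.rpow_mul (hN i)]
    have : (P - 1) / P * (P / (P - 1)) = 1 := by
      have : P - 1 ≠ 0 := by linarith
      field_simp
    rw [this, Real.rpow_one]
  have e3 : ∀ i, ((a i ^ 4 / N i ^ (P - 1)) ^ (1 / P)) ^ P = a i ^ 4 / N i ^ (P - 1) := by
    intro i
    rw [← Real.rpow_mul (div_nonneg (by have := ha i; positivity) (Real.rpow_nonneg (hN i) _))]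
    have : 1 / P * P = 1 := by field_simp
    rw [this, Real.rpow_one]
  simp only [e1, e2, e3] at h
  have hA : 0 ≤ ∑ i, N i := Finset.sum_nonneg fun i _ => hN i
  have hB : 0 ≤ ∑ i, a i ^ 4 / N i ^ (P - 1) := Finset.sum_nonneg fun i _ =>
    div_nonneg (by have := ha i; positivity) (Real.rpow_nonneg (hN i) _)
  have hC : 0 ≤ ∑ i, a i ^ (4 / 3 * (1 + ε)) := Finset.sum_nonneg fun i _ =>
    Real.rpow_nonneg (ha i) _
  calc (∑ i, a i ^ (4 / 3 * (1 + ε))) ^ P
      ≤ ((∑ i, N i) ^ (1 / (P / (P - 1))) * (∑ i, a i ^ 4 / N i ^ (P - 1)) ^ (1 / P)) ^ P :=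
        Real.rpow_le_rpow hC h hP0.le
    _ = (∑ i, N i) ^ (P - 1) * ∑ i, a i ^ 4 / N i ^ (P - 1) := by
        rw [Real.mul_rpow (Real.rpow_nonneg hA _) (Real.rpow_nonneg hB _), ← Real.rpow_mul hA,
          ← Real.rpow_mul hB]
        have e4 : 1 / (P / (P - 1)) * P = P - 1 := by
          have : P - 1 ≠ 0 := by linarith
          field_simp
        have e5 : 1 / P * P = 1 := by field_simp
        rw [e4, e5, Real.rpow_one]

/-- **Improved Young inequality with weights** (Y). For every `β ∈ [1 - cY / log q, 1]`. -/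
theorem quad_le_weights {s : ι → ℝ} {ρ : ℝ} (hs : Sep s ρ) (hρ : 0 ≤ ρ) (a N : ι → ℝ)
    (ha : ∀ i, 0 ≤ a i) (hN : ∀ i, 0 ≤ N i) (h0 : ∀ i, N i = 0 → a i = 0)
    (q β : ℝ) (hq : (Fintype.card ι : ℝ) ≤ q)
    (hq2 : 2 ≤ q) (hβ1 : β ≤ 1) (hβ : 1 - cY / Real.log q ≤ β) :
    quad s ρ a a a a ≤ (∑ i, N i) ^ (2 * β) * ∑ i, a i ^ 4 / N i ^ (2 * β) := by
  have hlog2 : (1:ℝ) / 2 < Real.log 2 := by have := Real.log_two_gt_d9; linarith
  have hlog : (1:ℝ) / 2 < Real.log q := hlog2.trans_le (Real.log_le_log (by norm_num) hq2)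
  have hc := cY_pos
  have hc' := cY_le
  have hδ0 : 0 ≤ 1 - β := by linarith
  have hδ1 : 1 - β ≤ cY / Real.log q := by linarith
  have hδ2 : 1 - β ≤ 1 / 2 := by
    refine hδ1.trans ?_
    rw [div_le_iff₀ (by linarith)]
    nlinarith
  set ε : ℝ := 2 * (1 - β) / (3 - 2 * (1 - β)) with hε
  have hden : 0 < 3 - 2 * (1 - β) := by linarith
  have hε0 : 0 ≤ ε := by rw [hε]; positivity
  have hεle : ε ≤ 1 - β := by
    rw [hε, div_le_iff₀ hden]
    nlinarith
  have hkey : 3 / (1 + ε) - 1 = 2 * β := by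
    rw [hε]
    have h1 : 1 + 2 * (1 - β) / (3 - 2 * (1 - β)) = 3 / (3 - 2 * (1 - β)) := by
      field_simp; ring
    rw [h1]
    have : (3:ℝ) / (3 / (3 - 2 * (1 - β))) = 3 - 2 * (1 - β) := by field_simp
    rw [this]; ring
  have h1 := quad_le_rpow hs hρ a ha q ε hq hq2 hε0 (hεle.trans hδ1)
  have h2 := holder_weights a N ha hN h0 ε hε0 (by linarith)
  rw [hkey] at h2
  exact h1.trans h2

/-- (Y1) in terms of the exponent `p ∈ [4/3, 4/3 + (4/3) cY / log q]`. -/
theorem quad_le_Lp {s : ι → ℝ} {ρ : ℝ} (hs : Sep s ρ) (hρ : 0 ≤ ρ) (a : ι → ℝ)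
    (ha : ∀ i, 0 ≤ a i) (q p : ℝ) (hq : (Fintype.card ι : ℝ) ≤ q)
    (hq2 : 2 ≤ q) (hp : 4 / 3 ≤ p) (hpc : p ≤ 4 / 3 + 4 / 3 * cY / Real.log q) :
    quad s ρ a a a a ≤ (∑ i, a i ^ p) ^ (4 / p) := by
  have h := quad_le_rpow hs hρ a ha q (3 / 4 * p - 1) hq hq2 (by linarith) (by
    have : 4 / 3 * cY / Real.log q = 4 / 3 * (cY / Real.log q) := by ring
    linarith)
  have e1 : 4 / 3 * (1 + (3 / 4 * p - 1)) = p := by ring
  have e2 : 3 / (1 + (3 / 4 * p - 1)) = 4 / p := by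
    have : p ≠ 0 := by linarith
    field_simp
    ring
  rwa [e1, e2] at h

/-- (Y3), form with gauges: indices with `a i = 0` may have `M i = 0`. -/
theorem quad_le_gauge {s : ι → ℝ} {ρ : ℝ} (hs : Sep s ρ) (hρ : 0 ≤ ρ) (a M : ι → ℝ)
    (ha : ∀ i, 0 ≤ a i) (hM : ∀ i, 0 ≤ M i) (h0 : ∀ i, M i = 0 → a i = 0)
    (q β : ℝ) (hq : (Fintype.card ι : ℝ) ≤ q)
    (hq2 : 2 ≤ q) (hβ1 : β ≤ 1) (hβ : 1 - cY / Real.log q ≤ β) :
    quad s ρ a a a a ≤ (∑ i, M i ^ (1 / β)) ^ (2 * β) * ∑ i, a i ^ 4 / M i ^ 2 := by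
  have hlog2 : (1:ℝ) / 2 < Real.log 2 := by have := Real.log_two_gt_d9; linarith
  have hlog : (1:ℝ) / 2 < Real.log q := hlog2.trans_le (Real.log_le_log (by norm_num) hq2)
  have hc := cY_pos
  have hc' := cY_le
  have hβ0 : 0 < β := by
    have : cY / Real.log q ≤ 1 / 2 := by
      rw [div_le_iff₀ (by linarith)]
      nlinarith
    linarith
  have h := quad_le_weights hs hρ a (fun i => M i ^ (1 / β)) ha
    (fun i => Real.rpow_nonneg (hM i) _) (fun i hi => by
      rcases eq_or_lt_of_le (hM i) with h | h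
      · exact h0 i h.symm
      · exact absurd hi (Real.rpow_pos_of_pos h _).ne') q β hq hq2 hβ1 hβ
  have e : ∀ i, (M i ^ (1 / β)) ^ (2 * β) = M i ^ 2 := by
    intro i
    rw [← Real.rpow_mul (hM i)]
    have : 1 / β * (2 * β) = 2 := by field_simp
    rw [this]
    norm_cast
  simp only [e] at h
  exact h

/-- Plain Young with weights (`β = 1`, any number of indices). -/
theorem quad_le_weights_one {s : ι → ℝ} {ρ : ℝ} (hs : Sep s ρ) (hρ : 0 ≤ ρ) (a N : ι → ℝ)
    (ha : ∀ i, 0 ≤ a i) (hN : ∀ i, 0 ≤ N i) (h0 : ∀ i, N i = 0 → a i = 0) :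
    quad s ρ a a a a ≤ (∑ i, N i) ^ 2 * ∑ i, a i ^ 4 / N i ^ 2 := by
  have h := quad_le_weights hs hρ a N ha hN h0 (max (Fintype.card ι) 2) 1 (le_max_left _ _)
    (le_max_right _ _) le_rfl (by
      have : 0 ≤ cY / Real.log (max (Fintype.card ι) 2) :=
        div_nonneg cY_pos.le (Real.log_nonneg (le_trans (by norm_num) (le_max_right _ _)))
      linarith)
  simpa using h

/-- Existential form without reference to the value of the constant. -/
theorem improvedYoung : ∃ c : ℝ, 0 < c ∧ ∀ (κ : Type) [Fintype κ] (s : κ → ℝ) (ρ : ℝ),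
    0 ≤ ρ → (∀ i j, i ≠ j → 3 * ρ < |s i - s j|) → ∀ (a N : κ → ℝ), (∀ i, 0 ≤ a i) →
    (∀ i, 0 < N i) → ∀ (q β : ℝ), (Fintype.card κ : ℝ) ≤ q → 2 ≤ q → β ≤ 1 →
    1 - c / Real.log q ≤ β →
    (∑ i, ∑ j, ∑ k, ∑ l, if |s i + s j - s k - s l| ≤ ρ then a i * a j * a k * a l else 0) ≤
      (∑ i, N i) ^ (2 * β) * ∑ i, a i ^ 4 / N i ^ (2 * β) := by
  refine ⟨cY, cY_pos, ?_⟩
  intro κ _ s ρ hρ hs a N ha hN q β hq hq2 hβ1 hβ
  exact quad_le_weights (s := s) (ρ := ρ) hs hρ a N ha (fun i => (hN i).le)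
    (fun i hi => absurd hi (hN i).ne') q β hq hq2 hβ1 hβ

end Basic

end Vale.Agent.P112.H747
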